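/-
Row 299 (S0453, switch chain), package W2: monotonicity of the hypergeometric law.
-/
import Mathlib

set_option autoImplicit false

namespace Crest.Agent.SC

open Finset

theorem cheb_lr (n : ℕ) (p p' φ : ℕ → ℝ)
    (h : ∀ u u', u ≤ u' → u' < n → p u' * p' u ≤ p u * p' u') (hφ : Monotone φ) :
    (∑ u ∈ range n, p u * φ u) * (∑ u ∈ range n, p' u)
      ≤ (∑ u ∈ range n, p' u * φ u) * (∑ u ∈ range n, p u) := by
  have e1 : (∑ u ∈ range n, p' u * φ u) * (∑ u ∈ range n, p u)
      - (∑ u ∈ range n, p u * φ u) * (∑ u ∈ range n, p' u)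
      = ∑ u ∈ range n, ∑ u' ∈ range n, p u * p' u' * (φ u' - φ u) := by
    rw [mul_comm (∑ u ∈ range n, p' u * φ u), sum_mul_sum, sum_mul_sum, ← sum_sub_distrib]
    refine sum_congr rfl fun u _ => ?_
    rw [← sum_sub_distrib]
    refine sum_congr rfl fun u' _ => ?_
    ring
  have e2 : 2 * ∑ u ∈ range n, ∑ u' ∈ range n, p u * p' u' * (φ u' - φ u)
      = ∑ u ∈ range n, ∑ u' ∈ range n, (p u * p' u' - p u' * p' u) * (φ u' - φ u) := by
    rw [two_mul]
    nth_rw 2 [sum_comm]
    rw [← sum_add_distrib]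
    refine sum_congr rfl fun u _ => ?_
    rw [← sum_add_distrib]
    refine sum_congr rfl fun u' _ => ?_
    ring
  have e3 : 0 ≤ ∑ u ∈ range n, ∑ u' ∈ range n, (p u * p' u' - p u' * p' u) * (φ u' - φ u) := by
    refine sum_nonneg fun u hu => sum_nonneg fun u' hu' => ?_
    rw [mem_range] at hu hu'
    rcases le_total u u' with hle | hle
    · exact mul_nonneg (sub_nonneg.2 (h u u' hle hu')) (sub_nonneg.2 (hφ hle))
    · exact mul_nonneg_of_nonpos_of_nonpos (sub_nonpos.2 (h u' u hle hu)) (sub_nonpos.2 (hφ hle))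
  linarith

theorem vander (s t k : ℕ) :
    ∑ u ∈ range (k + 1), (s.choose u : ℝ) * (t.choose (k - u) : ℝ) = ((s + t).choose k : ℝ) := by
  rw [Nat.add_choose_eq, Finset.Nat.sum_antidiagonal_eq_sum_range_succ
    (f := fun i j => s.choose i * t.choose j)]
  push_cast
  rfl

theorem choose_id1 (s u : ℕ) :
    ((s + 1).choose u : ℝ) * ((s : ℝ) + 1 - u) = (s.choose u : ℝ) * (s + 1) := by
  by_cases hu : u ≤ s + 1
  · have h := Nat.choose_mul_succ_eq s u
    have h' : ((s.choose u * (s + 1) : ℕ) : ℝ) = (((s + 1).choose u * (s + 1 - u) : ℕ) : ℝ) := by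
      rw [h]
    push_cast [Nat.cast_sub hu] at h'
    linarith
  · push Not at hu
    rw [Nat.choose_eq_zero_of_lt hu, Nat.choose_eq_zero_of_lt (by omega : s < u)]
    simp

/-- monotonicity of the hypergeometric law -/
theorem hyp_mono (s t k : ℕ) (φ : ℕ → ℝ) (hφ : Monotone φ) :
    (∑ u ∈ range (k + 1), (s.choose u : ℝ) * (t.choose (k - u) : ℝ) * φ u)
        * ((s + 1 + (t + 1)).choose (k + 1) : ℝ) ≤
    (∑ u ∈ range (k + 2), ((s + 1).choose u : ℝ) * ((t + 1).choose (k + 1 - u) : ℝ) * φ u)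
        * ((s + t).choose k : ℝ) := by
  set p : ℕ → ℝ := fun u => if u ≤ k then (s.choose u : ℝ) * (t.choose (k - u) : ℝ) else 0 with hp
  set p' : ℕ → ℝ := fun u => ((s + 1).choose u : ℝ) * ((t + 1).choose (k + 1 - u) : ℝ) with hp'
  have h0 : ∀ g : ℕ → ℝ, ∑ u ∈ range (k + 1), (s.choose u : ℝ) * (t.choose (k - u) : ℝ) * g u
      = ∑ u ∈ range (k + 2), p u * g u := by
    intro g
    rw [sum_range_succ _ (k + 1)]
    have : p (k + 1) = 0 := by simp [hp]
    rw [this, zero_mul, add_zero]
    refine sum_congr rfl fun u hu => ?_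
    rw [mem_range] at hu
    simp only [hp]
    rw [if_pos (by omega)]
  have h1 : ((s + t).choose k : ℝ) = ∑ u ∈ range (k + 2), p u := by
    rw [← vander s t k]
    have := h0 (fun _ => 1)
    simpa using this
  have h2 : ((s + 1 + (t + 1)).choose (k + 1) : ℝ) = ∑ u ∈ range (k + 2), p' u := by
    rw [← vander (s + 1) (t + 1) (k + 1)]
  have hid : ∀ u, u ≤ k + 1 → p' u * (((s : ℝ) + 1 - u) * ((k : ℝ) + 1 - u))
      = p u * ((s + 1) * (t + 1)) := by
    intro u hu
    rcases Nat.lt_or_ge k u with hlt | hle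
    · have : u = k + 1 := by omega
      subst this
      simp [hp]
    · simp only [hp', hp]
      rw [if_pos hle]
      have e1 := choose_id1 s u
      have e2 : ((t + 1).choose (k + 1 - u) : ℝ) * ((k : ℝ) + 1 - u)
          = (t.choose (k - u) : ℝ) * (t + 1) := by
        have h := Nat.add_one_mul_choose_eq t (k - u)
        have hs : k + 1 - u = (k - u).succ := by omega
        rw [hs]
        have h' : (((t.succ) * t.choose (k - u) : ℕ) : ℝ)
            = ((t.succ.choose (k - u).succ * (k - u).succ : ℕ) : ℝ) := by rw [h]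
        push_cast [Nat.cast_sub hle] at h'
        have h3 : ((t + 1).choose (k - u).succ : ℝ) = (t.succ.choose (k - u).succ : ℝ) := rfl
        rw [h3]
        linarith
      calc ((s + 1).choose u : ℝ) * ((t + 1).choose (k + 1 - u) : ℝ)
            * (((s : ℝ) + 1 - u) * ((k : ℝ) + 1 - u))
          = (((s + 1).choose u : ℝ) * ((s : ℝ) + 1 - u))
            * (((t + 1).choose (k + 1 - u) : ℝ) * ((k : ℝ) + 1 - u)) := by ring
        _ = _ := by rw [e1, e2]; ring
  have hp'0 : ∀ u, 0 ≤ p' u := fun u => by simp only [hp']; positivity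
  have hp0 : ∀ u, 0 ≤ p u := fun u => by
    simp only [hp]
    split_ifs
    · positivity
    · exact le_rfl
  rw [h0 φ, h2, h1]
  refine cheb_lr (k + 2) p p' φ ?_ hφ
  intro u u' huu' hu'
  by_cases hz : p u' = 0
  · rw [hz, zero_mul]; exact mul_nonneg (hp0 u) (hp'0 u')
  · have hk : u' ≤ k := by
      by_contra hh
      exact hz (by simp only [hp]; rw [if_neg hh])
    have hs : u' ≤ s := by
      by_contra hh
      push Not at hh
      apply hz
      simp only [hp]
      rw [if_pos hk, Nat.choose_eq_zero_of_lt hh]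
      simp
    have hK : (0 : ℝ) < (s + 1) * (t + 1) := by positivity
    have e1 := hid u (by omega)
    have e2 := hid u' (by omega)
    have c1 : (u : ℝ) ≤ u' := by exact_mod_cast huu'
    have c2 : (u' : ℝ) ≤ k := by exact_mod_cast hk
    have c3 : (u' : ℝ) ≤ s := by exact_mod_cast hs
    have c4 : ((s : ℝ) + 1 - u') * ((k : ℝ) + 1 - u') ≤ ((s : ℝ) + 1 - u) * ((k : ℝ) + 1 - u) := by
      apply mul_le_mul <;> linarith
    have c5 := mul_le_mul_of_nonneg_left c4 (mul_nonneg (hp'0 u) (hp'0 u'))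
    refine le_of_mul_le_mul_right ?_ hK
    calc p u' * p' u * ((s + 1) * (t + 1)) = (p u' * ((s + 1) * (t + 1))) * p' u := by ring
      _ = p' u * p' u' * (((s : ℝ) + 1 - u') * ((k : ℝ) + 1 - u')) := by rw [← e2]; ring
      _ ≤ p' u * p' u' * (((s : ℝ) + 1 - u) * ((k : ℝ) + 1 - u)) := c5
      _ = (p' u * (((s : ℝ) + 1 - u) * ((k : ℝ) + 1 - u))) * p' u' := by ring
      _ = (p u * ((s + 1) * (t + 1))) * p' u' := by rw [e1]
      _ = p u * p' u' * ((s + 1) * (t + 1)) := by ring

/-- counting lemma -/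
theorem card_split {α : Type*} [DecidableEq α] (A B : Finset α) (h : Disjoint A B) (κ u : ℕ)
    (hu : u ≤ κ) :
    ((powersetCard κ (A ∪ B)).filter (fun W => (W ∩ A).card = u)).card
      = A.card.choose u * B.card.choose (κ - u) := by
  rw [← card_powersetCard, ← card_powersetCard, ← card_product]
  refine card_bij' (fun W _ => (W ∩ A, W ∩ B)) (fun q _ => q.1 ∪ q.2) ?_ ?_ ?_ ?_
  · intro W hW
    rw [mem_filter, mem_powersetCard] at hW
    obtain ⟨⟨h1, h2⟩, h3⟩ := hW
    rw [mem_product, mem_powersetCard, mem_powersetCard]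
    refine ⟨⟨inter_subset_right, h3⟩, inter_subset_right, ?_⟩
    have h4 : W = (W ∩ A) ∪ (W ∩ B) := by
      rw [← inter_union_distrib_left]; exact (inter_eq_left.2 h1).symm
    have h5 : (W ∩ A).card + (W ∩ B).card = W.card := by
      rw [← card_union_of_disjoint, ← h4]
      exact h.mono inter_subset_right inter_subset_right
    simp only
    omega
  · rintro ⟨X, Y⟩ hq
    rw [mem_product, mem_powersetCard, mem_powersetCard] at hq
    obtain ⟨⟨h1, h2⟩, h3, h4⟩ := hq
    simp only at h1 h2 h3 h4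
    rw [mem_filter, mem_powersetCard]
    have hYA : Y ∩ A = ∅ := by
      rw [← disjoint_iff_inter_eq_empty]; exact (h.mono_right h3).symm
    refine ⟨⟨union_subset_union h1 h3, ?_⟩, ?_⟩
    · rw [card_union_of_disjoint (h.mono h1 h3), h2, h4]; omega
    · simp only
      rw [union_inter_distrib_right, hYA, union_empty, inter_eq_left.2 h1, h2]
  · intro W hW
    rw [mem_filter, mem_powersetCard] at hW
    simp only
    rw [← inter_union_distrib_left]
    exact inter_eq_left.2 hW.1.1
  · rintro ⟨X, Y⟩ hq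
    rw [mem_product, mem_powersetCard, mem_powersetCard] at hq
    obtain ⟨⟨h1, h2⟩, h3, h4⟩ := hq
    simp only at h1 h2 h3 h4
    have hYA : Y ∩ A = ∅ := by
      rw [← disjoint_iff_inter_eq_empty]; exact (h.mono_right h3).symm
    have hXB : X ∩ B = ∅ := by
      rw [← disjoint_iff_inter_eq_empty]; exact (h.mono_left h1)
    simp only [Prod.mk.injEq]
    rw [union_inter_distrib_right, union_inter_distrib_right, hYA, hXB, union_empty, empty_union]
    exact ⟨inter_eq_left.2 h1, inter_eq_left.2 h3⟩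

/-- sums over `κ`-subsets of `A ∪ B` of a function of `|W ∩ A|` -/
theorem sum_split {α : Type*} [DecidableEq α] (A B : Finset α) (h : Disjoint A B) (κ : ℕ)
    (g : ℕ → ℝ) :
    ∑ W ∈ powersetCard κ (A ∪ B), g (W ∩ A).card
      = ∑ u ∈ range (κ + 1), (A.card.choose u : ℝ) * (B.card.choose (κ - u) : ℝ) * g u := by
  have hmaps : ∀ W ∈ powersetCard κ (A ∪ B), (W ∩ A).card ∈ range (κ + 1) := by
    intro W hW
    rw [mem_powersetCard] at hW
    rw [mem_range]
    have := card_le_card (inter_subset_left : W ∩ A ⊆ W)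
    omega
  rw [← sum_fiberwise_of_maps_to hmaps]
  refine sum_congr rfl fun u hu => ?_
  rw [mem_range] at hu
  have h1 : ∑ W ∈ (powersetCard κ (A ∪ B)).filter (fun W => (W ∩ A).card = u), g (W ∩ A).card
      = ∑ W ∈ (powersetCard κ (A ∪ B)).filter (fun W => (W ∩ A).card = u), g u := by
    refine sum_congr rfl fun W hW => ?_
    rw [(mem_filter.1 hW).2]
  rw [h1, sum_const, nsmul_eq_mul, card_split A B h κ u (by omega)]
  push_cast
  ring

end Crest.Agent.SC
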